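import Mathlib
import Vale.Agent.Lib.P162.Defs
import Vale.Agent.Lib.P162.helper23.ProdTv

/-!
# P162-R1 (pool job 305): the `j` old cards of the `(j+1)`-card chain evolve as the `j`-card chain
-/

namespace Vale.Agent.Lib.P162.H43

open Finset BigOperators

/-- One step: summing the `(j+1)`-card kernel over the target position of the new card gives
the `j`-card kernel of the old cards. -/
theorem step_tail (h j : ℕ) [NeZero h] (z : Fin (j + 1) → ZMod (2 * h))
    (v : Fin j → ZMod (2 * h)) :
    ∑ q : ZMod (2 * h), Kmat h (j + 1) z (Fin.cons q v : Fin (j + 1) → ZMod (2 * h))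
      = Kmat h j (Fin.tail z) v := by
  show ∑ q : ZMod (2 * h),
      ((univ.filter fun c : ZMod h → Bool =>
        ∀ i', move h c (z i') = (Fin.cons q v : Fin (j + 1) → ZMod (2 * h)) i').card : ℝ) / 2 ^ h
    = ((univ.filter fun c : ZMod h → Bool =>
        ∀ i, move h c (Fin.tail z i) = v i).card : ℝ) / 2 ^ h
  rw [← Finset.sum_div]
  congr 1
  rw [← Nat.cast_sum]
  congr 1
  rw [Finset.card_eq_sum_card_fiberwise (f := fun c : ZMod h → Bool => move h c (z 0))
    (s := univ.filter fun c : ZMod h → Bool => ∀ i, move h c (Fin.tail z i) = v i)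
    (t := (univ : Finset (ZMod (2 * h)))) (fun _ _ => Finset.mem_univ _)]
  refine Finset.sum_congr rfl fun q _ => ?_
  congr 1
  ext c
  rw [Finset.mem_filter, Finset.mem_filter, Finset.mem_filter]
  constructor
  · rintro ⟨hu, hc⟩
    refine ⟨⟨hu, fun i => ?_⟩, ?_⟩
    · have h1 := hc i.succ
      rw [Fin.cons_succ] at h1
      exact h1
    · have h1 := hc 0
      rw [Fin.cons_zero] at h1
      exact h1
  · rintro ⟨⟨hu, hc⟩, h0⟩
    refine ⟨hu, fun i' => ?_⟩
    refine Fin.cases ?_ (fun i => ?_) i'
    · rw [Fin.cons_zero]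
      exact h0
    · rw [Fin.cons_succ]
      exact hc i

/-- The `j` old cards of the `(j+1)`-card chain evolve as the `j`-card chain. -/
theorem lump_tail (h j : ℕ) [NeZero h] (s : ℕ) (z : Fin (j + 1) → ZMod (2 * h))
    (v : Fin j → ZMod (2 * h)) :
    ∑ q : ZMod (2 * h), (Kmat h (j + 1) ^ s) z (Fin.cons q v : Fin (j + 1) → ZMod (2 * h))
      = (Kmat h j ^ s) (Fin.tail z) v := by
  induction s generalizing z with
  | zero =>
    rw [pow_zero, pow_zero, Matrix.one_apply]
    have h1 : ∀ q : ZMod (2 * h),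
        (1 : Matrix (Fin (j + 1) → ZMod (2 * h)) (Fin (j + 1) → ZMod (2 * h)) ℝ) z
          (Fin.cons q v : Fin (j + 1) → ZMod (2 * h))
        = if z = (Fin.cons q v : Fin (j + 1) → ZMod (2 * h)) then 1 else 0 :=
      fun q => Matrix.one_apply
    rw [Finset.sum_congr rfl fun q _ => h1 q]
    by_cases hz : Fin.tail z = v
    · rw [if_pos hz, Finset.sum_eq_single (z 0)]
      · rw [if_pos]
        rw [← hz]
        exact (Fin.cons_self_tail z).symm
      · intro q _ hq
        rw [if_neg]
        intro hzq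
        apply hq
        have h2 := congrFun hzq 0
        rw [Fin.cons_zero] at h2
        exact h2.symm
      · intro h0
        exact absurd (Finset.mem_univ _) h0
    · rw [if_neg hz]
      apply Finset.sum_eq_zero
      intro q _
      rw [if_neg]
      intro hzq
      apply hz
      rw [hzq]
      exact Fin.tail_cons (α := fun _ : Fin (j + 1) => ZMod (2 * h)) q v
  | succ s ih =>
    rw [pow_succ', pow_succ']
    have hL : ∀ q : ZMod (2 * h),
        (Kmat h (j + 1) * Kmat h (j + 1) ^ s) z (Fin.cons q v : Fin (j + 1) → ZMod (2 * h))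
        = ∑ u, Kmat h (j + 1) z u
            * (Kmat h (j + 1) ^ s) u (Fin.cons q v : Fin (j + 1) → ZMod (2 * h)) :=
      fun q => Matrix.mul_apply
    rw [Finset.sum_congr rfl fun q _ => hL q, Finset.sum_comm]
    have h1 : ∀ u : Fin (j + 1) → ZMod (2 * h),
        ∑ q : ZMod (2 * h), Kmat h (j + 1) z u
            * (Kmat h (j + 1) ^ s) u (Fin.cons q v : Fin (j + 1) → ZMod (2 * h))
        = Kmat h (j + 1) z u * (Kmat h j ^ s) (Fin.tail u) v := by
      intro u
      rw [← Finset.mul_sum, ih u]
    rw [Finset.sum_congr rfl fun u _ => h1 u]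
    rw [H23.sum_fin_succ_fun, Finset.sum_comm, Matrix.mul_apply]
    refine Finset.sum_congr rfl fun w _ => ?_
    rw [← step_tail h j z w, Finset.sum_mul]
    refine Finset.sum_congr rfl fun p _ => ?_
    rw [Fin.tail_cons]

end Vale.Agent.Lib.P162.H43
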