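import Mathlib
import Vale.Agent.Lib.P162.Defs

namespace Vale.Agent.Lib.P162.H43

open Finset BigOperators

/-- The `m`-th power of a product kernel is the product of the `m`-th powers (the product
kernel is any matrix `K` with `K z y = ∏ j, W (z j) (y j)`). -/
theorem prodKernel_pow_of {α : Type*} [Fintype α] [DecidableEq α] (k : ℕ) (W : Matrix α α ℝ)
    (K : Matrix (Fin k → α) (Fin k → α) ℝ) (hK : ∀ z y, K z y = ∏ j, W (z j) (y j)) (m : ℕ)
    (z y : Fin k → α) :
    (K ^ m) z y = ∏ j, (W ^ m) (z j) (y j) := by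
  induction m generalizing z y with
  | zero =>
    simp only [pow_zero, Matrix.one_apply]
    rw [Finset.prod_ite_zero]
    by_cases h : z = y
    · subst h
      simp
    · rw [if_neg h, if_neg]
      intro h'
      exact h (funext fun j => h' j (Finset.mem_univ j))
  | succ m ih =>
    rw [pow_succ, Matrix.mul_apply]
    have h1 : ∀ u : Fin k → α,
        (K ^ m) z u * K u y = ∏ j, ((W ^ m) (z j) (u j) * W (u j) (y j)) := by
      intro u
      rw [ih z u, hK u y, Finset.prod_mul_distrib]
    rw [Finset.sum_congr rfl (fun u _ => h1 u)]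
    have h2 : ∀ j : Fin k, (W ^ (m + 1)) (z j) (y j) = ∑ q, (W ^ m) (z j) q * W q (y j) := by
      intro j
      rw [pow_succ, Matrix.mul_apply]
    rw [Finset.prod_congr rfl (fun j _ => h2 j)]
    rw [Finset.prod_univ_sum, Fintype.piFinset_univ]

/-- The same with the product kernel written as `Matrix.of`, so that the power is the matrix
power. -/
theorem prodKernel_pow {α : Type*} [Fintype α] [DecidableEq α] (k : ℕ) (W : Matrix α α ℝ) (m : ℕ)
    (z y : Fin k → α) :
    ((Matrix.of fun z y : Fin k → α => ∏ j, W (z j) (y j)) ^ m) z y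
      = ∏ j, (W ^ m) (z j) (y j) :=
  prodKernel_pow_of k W _ (fun _ _ => rfl) m z y

/-- The `m`-th power of the free `k`-card kernel is the product of the `m`-th powers of the
free one-card kernel. -/
theorem Wk_pow (h k : ℕ) [NeZero h] (m : ℕ) (z y : Fin k → ZMod (2 * h)) :
    (Wk h k ^ m) z y = ∏ j, (Wmat h ^ m) (z j) (y j) :=
  prodKernel_pow_of k (Wmat h) (Wk h k) (fun _ _ => rfl) m z y

end Vale.Agent.Lib.P162.H43
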