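import Mathlib
import Vale.Agent.Lib.P162.Defs
import Vale.Agent.Lib.P162.RDefs
import Vale.Agent.Lib.P162.CVDefs
import Vale.Agent.Lib.P162.helper95.KmatBasic
import Vale.Agent.Lib.P162.helper36.MoveInj
import Vale.Agent.Lib.P162.helper23.ProdTv
import Vale.Agent.Lib.P162.helper43.LumpTail
import Vale.Agent.Lib.P162.helper5.TvStep

/-!
# P162-CV5 (pool job 394): the square of the defect is bounded by the collision probability
-/

namespace Vale.Agent.Lib.P162.H43CV

open Finset BigOperators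

/-- Weighted Cauchy-Schwarz: if `r i ^ 2 ≤ f i * g i` with `f, g ≥ 0` then
`(∑ r) ^ 2 ≤ (∑ f) * (∑ g)`. -/
theorem sq_sum_le_of_sq_le {ι : Type*} (s : Finset ι) (r f g : ι → ℝ)
    (hf : ∀ i ∈ s, 0 ≤ f i) (hg : ∀ i ∈ s, 0 ≤ g i) (hr : ∀ i ∈ s, r i ^ 2 ≤ f i * g i) :
    (∑ i ∈ s, r i) ^ 2 ≤ (∑ i ∈ s, f i) * ∑ i ∈ s, g i :=
  Finset.sum_sq_le_sum_mul_sum_of_sq_le_mul s hf hg hr

/-- Cauchy-Schwarz for the deviation from the mean on a set of `m` points. -/
theorem sq_sum_abs_sub_le {α : Type*} (H : Finset α) (a : α → ℝ) (b m : ℝ) (hm : 0 < m)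
    (hcard : (H.card : ℝ) = m) (hsum : ∑ q ∈ H, a q = b) :
    (∑ q ∈ H, |a q - b / m|) ^ 2 ≤ m * ∑ q ∈ H, (a q) ^ 2 - b ^ 2 := by
  have h1 : (∑ q ∈ H, |a q - b / m|) ^ 2 ≤ (H.card : ℝ) * ∑ q ∈ H, |a q - b / m| ^ 2 :=
    sq_sum_le_card_mul_sum_sq
  have h2 : ∑ q ∈ H, |a q - b / m| ^ 2 = ∑ q ∈ H, (a q) ^ 2 - b ^ 2 / m := by
    have h3 : ∀ q ∈ H, |a q - b / m| ^ 2 = (a q) ^ 2 - 2 * (b / m) * a q + (b / m) ^ 2 := by
      intro q _
      rw [sq_abs]
      ring
    rw [Finset.sum_congr rfl h3, Finset.sum_add_distrib, Finset.sum_sub_distrib,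
      ← Finset.mul_sum, hsum, Finset.sum_const, nsmul_eq_mul, hcard]
    field_simp
    ring
  rw [h2, hcard] at h1
  have h4 : m * (∑ q ∈ H, (a q) ^ 2 - b ^ 2 / m) = m * ∑ q ∈ H, (a q) ^ 2 - b ^ 2 := by
    field_simp
  rw [h4] at h1
  exact h1

/-- Abstract core of `defect_sq_le_of`. -/
theorem defect_core {α : Type*} [Fintype α] {β : Type*} [Fintype β] (m : ℝ) (hm : 1 ≤ m)
    (a : α → β → ℝ) (b S : β → ℝ) (P : α → β → Prop) [∀ q v, Decidable (P q v)]
    (ha : ∀ q v, 0 ≤ a q v) (hb : ∀ v, 0 ≤ b v) (hS : ∀ v, 0 ≤ S v)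
    (hF1 : ∀ v, ∑ q, a q v = b v)
    (hF2 : ∀ q v, a q v ≠ 0 → P q v)
    (hF3 : ∀ v, ∑ q, (a q v) ^ 2 ≤ b v * S v)
    (hF6 : ∀ v, b v ≠ 0 → ((univ.filter fun q => P q v).card : ℝ) = m) :
    (∑ v, ∑ q, |a q v - if P q v then b v / m else 0|) ^ 2
      ≤ (∑ v, b v) * ∑ v, (m * S v - b v) := by
  have hm0 : 0 < m := lt_of_lt_of_le one_pos hm
  have claim : ∀ v, (∑ q, |a q v - if P q v then b v / m else 0|) ^ 2
      ≤ b v * (m * S v - b v) := by
    intro v
    by_cases hbv : b v = 0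
    · have ha0 : ∀ q, a q v = 0 := by
        intro q
        have h1 : ∑ q, a q v = 0 := by rw [hF1 v, hbv]
        exact (Finset.sum_eq_zero_iff_of_nonneg (fun q _ => ha q v)).1 h1 q (Finset.mem_univ q)
      have h2 : ∑ q, |a q v - if P q v then b v / m else 0| = 0 := by
        refine Finset.sum_eq_zero (fun q _ => ?_)
        rw [ha0 q, hbv]
        simp
      rw [h2, hbv]
      simp
    · have hcard := hF6 v hbv
      have hout : ∀ q, ¬ P q v → a q v = 0 := by
        intro q hq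
        by_contra hne
        exact hq (hF2 q v hne)
      have e1 : ∑ q, |a q v - if P q v then b v / m else 0|
          = ∑ q ∈ univ.filter (fun q => P q v), |a q v - b v / m| := by
        rw [Finset.sum_filter]
        refine Finset.sum_congr rfl (fun q _ => ?_)
        by_cases hq : P q v
        · rw [if_pos hq, if_pos hq]
        · rw [if_neg hq, if_neg hq, hout q hq]
          simp
      have e2 : ∑ q ∈ univ.filter (fun q => P q v), a q v = b v := by
        rw [← hF1 v, Finset.sum_filter]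
        refine Finset.sum_congr rfl (fun q _ => ?_)
        by_cases hq : P q v
        · rw [if_pos hq]
        · rw [if_neg hq, hout q hq]
      have e3 : ∑ q ∈ univ.filter (fun q => P q v), (a q v) ^ 2 ≤ ∑ q, (a q v) ^ 2 :=
        Finset.sum_le_sum_of_subset_of_nonneg (Finset.filter_subset _ _)
          (fun q _ _ => sq_nonneg _)
      have e4 := sq_sum_abs_sub_le (univ.filter (fun q => P q v)) (fun q => a q v) (b v) m hm0
        hcard e2
      rw [e1]
      calc (∑ q ∈ univ.filter (fun q => P q v), |a q v - b v / m|) ^ 2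
          ≤ m * ∑ q ∈ univ.filter (fun q => P q v), (a q v) ^ 2 - (b v) ^ 2 := e4
        _ ≤ m * (b v * S v) - (b v) ^ 2 := by
          have h5 := mul_le_mul_of_nonneg_left (e3.trans (hF3 v)) hm0.le
          linarith
        _ = b v * (m * S v - b v) := by ring
  have hg : ∀ v, 0 ≤ m * S v - b v := by
    intro v
    by_cases hbv : b v = 0
    · rw [hbv, sub_zero]
      exact mul_nonneg hm0.le (hS v)
    · have hpos : 0 < b v := lt_of_le_of_ne (hb v) (Ne.symm hbv)
      have h1 : 0 ≤ b v * (m * S v - b v) := le_trans (sq_nonneg _) (claim v)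
      by_contra hneg
      have h2 := mul_neg_of_pos_of_neg hpos (not_le.mp hneg)
      linarith
  exact sq_sum_le_of_sq_le univ _ b (fun v => m * S v - b v) (fun v _ => hb v)
    (fun v _ => hg v) (fun v _ => claim v)

/-- The resampled law at a pair of `cons` tuples. -/
theorem resamp_cons (h j : ℕ) [NeZero h] (t : ℕ) (p q : ZMod (2 * h))
    (w v : Fin j → ZMod (2 * h)) :
    resamp h j t (Fin.cons p w) (Fin.cons q v)
      = if (∀ i : Fin j, q ≠ v i) then (Kmat h j ^ t) w v / ((2 * h : ℝ) - j) else 0 := rfl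

theorem defect_sq_le_of (h j : ℕ) [NeZero h]
    (hdiag : ∀ (t : ℕ) (p q : ZMod (2 * h)) (w v : Fin j → ZMod (2 * h)),
      ((Kmat h (j + 1) ^ t) (Fin.cons p w) (Fin.cons q v)) ^ 2
        ≤ (Kmat h j ^ t) w v
          * (Qmat h j ^ t) (Fin.cons p (Fin.cons p w)) (Fin.cons q (Fin.cons q v)))
    (hQnn : ∀ (t : ℕ) (u y : Fin (j + 2) → ZMod (2 * h)), 0 ≤ (Qmat h j ^ t) u y)
    (t : ℕ) (p : ZMod (2 * h)) (w : Fin j → ZMod (2 * h))
    (hz : Function.Injective (Fin.cons p w : Fin (j + 1) → ZMod (2 * h))) :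
    (defect h j t (Fin.cons p w)) ^ 2
      ≤ ((2 * h : ℝ) - j) * Dcol h j t (Fin.cons p (Fin.cons p w)) - 1 := by
  have hw : Function.Injective w := (Fin.cons_injective_iff.1 hz).2
  have hcard : j + 1 ≤ 2 * h := by
    have h1 := Fintype.card_le_of_injective _ hz
    rwa [Fintype.card_fin, ZMod.card] at h1
  have hm : (1 : ℝ) ≤ (2 * h : ℝ) - j := by
    have h1 : ((j + 1 : ℕ) : ℝ) ≤ ((2 * h : ℕ) : ℝ) := by exact_mod_cast hcard
    push_cast at h1
    linarith
  have hdef : defect h j t (Fin.cons p w)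
      = ∑ v : Fin j → ZMod (2 * h), ∑ q : ZMod (2 * h),
          |(Kmat h (j + 1) ^ t) (Fin.cons p w) (Fin.cons q v)
            - if (∀ i : Fin j, q ≠ v i) then (Kmat h j ^ t) w v / ((2 * h : ℝ) - j) else 0| := by
    rw [defect_apply, H23.sum_fin_succ_fun, Finset.sum_comm]
    rfl
  have key := defect_core ((2 * h : ℝ) - j) hm
    (fun (q : ZMod (2 * h)) (v : Fin j → ZMod (2 * h)) =>
      (Kmat h (j + 1) ^ t) (Fin.cons p w) (Fin.cons q v))
    (fun v : Fin j → ZMod (2 * h) => (Kmat h j ^ t) w v)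
    (fun v : Fin j → ZMod (2 * h) => ∑ q : ZMod (2 * h),
      (Qmat h j ^ t) (Fin.cons p (Fin.cons p w)) (Fin.cons q (Fin.cons q v)))
    (fun (q : ZMod (2 * h)) (v : Fin j → ZMod (2 * h)) => ∀ i : Fin j, q ≠ v i)
    (fun q v => H95.Kmat_pow_nonneg h (j + 1) t _ _)
    (fun v => H95.Kmat_pow_nonneg h j t _ _)
    (fun v => Finset.sum_nonneg (fun q _ => hQnn t _ _))
    (fun v => by
      have h1 := H43.lump_tail h j t (Fin.cons p w) v
      rwa [Fin.tail_cons] at h1)
    (fun q v hne => by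
      have hinj := H95.Kmat_pow_support h (j + 1) (H36.move_injective h) (Fin.cons p w) hz t
        (Fin.cons q v) hne
      have h1 := (Fin.cons_injective_iff.1 hinj).1
      intro i hqi
      exact h1 ⟨i, hqi.symm⟩)
    (fun v => by
      rw [Finset.mul_sum]
      exact Finset.sum_le_sum (fun q _ => hdiag t p q w v))
    (fun v hbv => by
      have hv : Function.Injective v :=
        H95.Kmat_pow_support h j (H36.move_injective h) w hw t v hbv
      have hc := H5.card_avoid j v hv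
      rw [ZMod.card] at hc
      rw [hc]
      have hj : j ≤ 2 * h := by omega
      rw [Nat.cast_sub hj]
      push_cast
      ring)
  rw [hdef]
  refine key.trans (le_of_eq ?_)
  rw [H95.Kmat_pow_sum h j t w, one_mul, Finset.sum_sub_distrib, ← Finset.mul_sum,
    H95.Kmat_pow_sum h j t w]
  rfl

end Vale.Agent.Lib.P162.H43CV
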